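import Vale.Agent.P092.H618.S2.MooreR
import Vale.Agent.P092.H303.Form

/-!
P092 (helper618), [P2-TYPE]: the Moore property of the contracted group of a diagonal element of
the group of a form of Witt index at least two.
-/

set_option linter.all false

open Filter Topology Matrix

namespace Vale.Agent.P092.H618.MooreF

open Vale.Agent.P092.RC (Moore)
open Vale.Agent.P092.H368.SN (Ctr)
open Vale.Agent.P092.H15 (HMG)
open Vale.Agent.P092.H303 (Idx hyp FormGroup torF torF_mem dgF root2 root2_mem HypAt hypAt_l hypAt_r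
  continuous_root2 root2_row_a)

section alg

variable {n : Type} [Fintype n] [DecidableEq n] {k : Type} [Field k]

theorem diag_trans (d : n → k) {a b : n} (h : a ≠ b) {u : k} (e : d a = u * d b) (t : k) :
    diagonal d * transvection a b t = transvection a b (u * t) * diagonal d := by
  ext x y
  rw [diagonal_mul, mul_diagonal]
  simp only [transvection, Matrix.add_apply, Matrix.single_apply, Matrix.one_apply]
  by_cases hxy : x = y
  · subst hxy
    have h1 : ¬ (a = x ∧ b = x) := fun h2 => h (h2.1.trans h2.2.symm)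
    simp only [if_true, if_neg h1]; ring
  · rw [if_neg hxy, zero_add, zero_add]
    by_cases hh : a = x ∧ b = y
    · obtain ⟨rfl, rfl⟩ := hh
      simp only [and_self, if_true]
      rw [e]; ring
    · rw [if_neg hh, if_neg hh]; ring

variable {ι : Type} [Fintype ι] [DecidableEq ι] {q : ℕ}

theorem tor_root2 {w : k} (hw : w ≠ 0) (l : Fin q → ℤ) {a b c d : Idx q ι} (h : a ≠ b)
    (h' : c ≠ d) {u v : k} (e : dgF q ι w l a = u * dgF q ι w l b)
    (e' : dgF q ι w l c = v * dgF q ι w l d) (t s : k) :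
    torF q ι hw l * root2 h h' t s = root2 h h' (u * t) (v * s) * torF q ι hw l := by
  apply Subtype.ext
  change diagonal (dgF q ι w l) * (transvection a b t * transvection c d s)
    = (transvection a b (u * t) * transvection c d (v * s)) * diagonal (dgF q ι w l)
  rw [← Matrix.mul_assoc, diag_trans _ h e, Matrix.mul_assoc, diag_trans _ h' e',
    Matrix.mul_assoc]

theorem root2_ent {a b c d : n} (h : a ≠ b) (h' : c ≠ d) (hac : a ≠ c) (hbc : b ≠ c) (t s : k) :
    (root2 h h' t s).1 a b = t := by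
  have h1 := root2_row_a h h' t s hac hbc 1
  rw [mul_one] at h1
  rw [h1]
  change (1 : Matrix n n k) a b + t * (1 : Matrix n n k) b b = t
  rw [Matrix.one_apply_ne h, Matrix.one_apply_eq, zero_add, mul_one]

end alg

variable {k : Type} [NontriviallyNormedField k] {ι : Type} [Fintype ι] [DecidableEq ι] {q : ℕ}
  {σ : k →+* k} {ε : k} {J₀ : Matrix ι ι k}

/-- diagonal elements of the group of the form -/
noncomputable def tor (q : ℕ) (σ : k →+* k) (ε : k) (J₀ : Matrix ι ι k) {w : k} (hw : w ≠ 0)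
    (hσw : σ w = w) (l : Fin q → ℤ) : FormGroup σ (hyp q ε J₀) :=
  ⟨torF q ι hw l, torF_mem q ε J₀ hw hσw l⟩

theorem tor_inv {w : k} (hw : w ≠ 0) (hσw : σ w = w) (l : Fin q → ℤ) :
    (tor q σ ε J₀ hw hσw l)⁻¹ = tor q σ ε J₀ hw hσw (fun i => - l i) := by
  symm
  apply eq_inv_of_mul_eq_one_left
  apply Subtype.ext
  apply Subtype.ext
  change diagonal (dgF q ι w fun i => - l i) * diagonal (dgF q ι w l) = 1
  rw [diagonal_mul_diagonal, ← diagonal_one]
  congr 1
  funext x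
  rcases x with (x | x) | x
  · change w ^ (- l x) * w ^ l x = 1
    rw [← zpow_add₀ hw, neg_add_cancel, zpow_zero]
  · change w ^ (- - l x) * w ^ (- l x) = 1
    rw [← zpow_add₀ hw, neg_add_cancel, zpow_zero]
  · change (1 : k) * 1 = 1
    rw [one_mul]

/-- the general root -/
theorem moore_root (hG : HMG (FormGroup σ (hyp q ε J₀))) (hσc : Continuous σ) {w : k}
    (hw : w ≠ 0) (hσw : σ w = w) (l : Fin q → ℤ) {a b a' b' : Idx q ι} {ωa ωa' ωb ωb' : k}
    (ha : HypAt (hyp q ε J₀) a a' ωa) (ha' : HypAt (hyp q ε J₀) a' a ωa')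
    (hb : HypAt (hyp q ε J₀) b b' ωb) (hb' : HypAt (hyp q ε J₀) b' b ωb') (hab : a ≠ b)
    (hab' : b' ≠ a') (h1 : b ≠ b') (h2 : a ≠ a') (h3 : a ≠ b') {u : k}
    (e1 : ∀ t, t * ωb + ωa * σ (u * σ t) = 0) (e2 : ∀ t, u * σ t * ωa' + ωb' * σ t = 0)
    {c : k} (hσ : σ c = c) (hc : ‖c‖ < 1) (ea : dgF q ι w l a = c * dgF q ι w l b)
    (eb : dgF q ι w l b' = c * dgF q ι w l a') :
    Moore (Ctr (tor q σ ε J₀ hw hσw l)) := by
  refine H618.MooreR.moore_ctr_root (k := k) hG
    (x := fun t => ⟨root2 hab hab' t (u * σ t),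
      root2_mem ha ha' hb hb' hab hab' h1 h2 (e1 t) (e2 t)⟩)
    ((continuous_root2 _ _ continuous_id (by fun_prop)).subtype_mk _) ?_ (c := c) hc ?_
    (f := fun g => ‖g.1.1 a b‖) ?_ ?_
  · apply Subtype.ext
    apply Subtype.ext
    change transvection a b (0 : k) * transvection b' a' (u * σ 0) = 1
    rw [map_zero, mul_zero, transvection_zero, transvection_zero, Matrix.one_mul]
  · intro s
    apply Subtype.ext
    have h4 := tor_root2 (ι := ι) hw l hab hab' ea eb s (u * σ s)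
    change torF q ι hw l * root2 hab hab' s (u * σ s) =
      root2 hab hab' (c * s) (u * σ (c * s)) * torF q ι hw l
    rw [h4]
    congr 2
    rw [map_mul, hσ]; ring
  · have h4 : Continuous fun x : FormGroup σ (hyp q ε J₀) => x.1.1 :=
      continuous_subtype_val.comp continuous_subtype_val
    exact ((continuous_apply b).comp ((continuous_apply a).comp h4)).norm
  · intro s
    change ‖s‖ ≤ ‖(root2 hab hab' s (u * σ s)).1 a b‖
    rw [root2_ent hab hab' h3 h1]

/-- the root `e_i - e_j` -/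
theorem moore_sub (hG : HMG (FormGroup σ (hyp q ε J₀))) (hσc : Continuous σ)
    (hσ : ∀ x, σ (σ x) = x) {w : k} (hw : w ≠ 0) (hσw : σ w = w) (l : Fin q → ℤ) {i j : Fin q}
    (hij : i ≠ j) (hl : ‖w ^ (l i - l j)‖ < 1) : Moore (Ctr (tor q σ ε J₀ hw hσw l)) := by
  refine moore_root hG hσc hw hσw l (hypAt_l q ε J₀ i) (hypAt_r q ε J₀ i) (hypAt_l q ε J₀ j)
    (hypAt_r q ε J₀ j) (by simpa using hij) (by simpa using hij.symm) (by simp) (by simp) (by simp)
    (u := -1) (fun t => ?_) (fun t => ?_) (c := w ^ (l i - l j)) (by rw [map_zpow₀, hσw]) hl ?_ ?_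
  · rw [map_mul, map_neg, map_one, hσ]; ring
  · ring
  · change w ^ l i = w ^ (l i - l j) * w ^ l j
    rw [← zpow_add₀ hw]; congr 1; ring
  · change w ^ (- l j) = w ^ (l i - l j) * w ^ (- l i)
    rw [← zpow_add₀ hw]; congr 1; ring

/-- the root `e_i + e_j` -/
theorem moore_add (hG : HMG (FormGroup σ (hyp q ε J₀))) (hσc : Continuous σ)
    (hσ : ∀ x, σ (σ x) = x) (hε : ε * σ ε = 1) {w : k} (hw : w ≠ 0) (hσw : σ w = w)
    (l : Fin q → ℤ) {i j : Fin q} (hij : i ≠ j) (hl : ‖w ^ (l i + l j)‖ < 1) :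
    Moore (Ctr (tor q σ ε J₀ hw hσw l)) := by
  refine moore_root hG hσc hw hσw l (hypAt_l q ε J₀ i) (hypAt_r q ε J₀ i) (hypAt_r q ε J₀ j)
    (hypAt_l q ε J₀ j) (by simp) (by simp) (by simp) (by simp) (by simpa using hij)
    (u := - σ ε) (fun t => ?_) (fun t => ?_) (c := w ^ (l i + l j)) (by rw [map_zpow₀, hσw]) hl
    ?_ ?_
  · rw [map_mul, map_neg, hσ, hσ]; ring
  · linear_combination (- σ t) * hε
  · change w ^ l i = w ^ (l i + l j) * w ^ (- l j)
    rw [← zpow_add₀ hw]; congr 1; ring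
  · change w ^ l j = w ^ (l i + l j) * w ^ (- l i)
    rw [← zpow_add₀ hw]; congr 1; ring

/-- the root `- e_i - e_j` -/
theorem moore_add' (hG : HMG (FormGroup σ (hyp q ε J₀))) (hσc : Continuous σ)
    (hσ : ∀ x, σ (σ x) = x) (hε : ε * σ ε = 1) {w : k} (hw : w ≠ 0) (hσw : σ w = w)
    (l : Fin q → ℤ) {i j : Fin q} (hij : i ≠ j) (hl : ‖w ^ (- l i - l j)‖ < 1) :
    Moore (Ctr (tor q σ ε J₀ hw hσw l)) := by
  have hε' : σ ε * ε = 1 := by rw [mul_comm]; exact hε
  refine moore_root hG hσc hw hσw l (hypAt_r q ε J₀ i) (hypAt_l q ε J₀ i) (hypAt_l q ε J₀ j)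
    (hypAt_r q ε J₀ j) (by simp) (by simp) (by simp) (by simp) (by simpa using hij)
    (u := - ε) (fun t => ?_) (fun t => ?_) (c := w ^ (- l i - l j)) (by rw [map_zpow₀, hσw]) hl
    ?_ ?_
  · rw [map_mul, map_neg, hσ]; linear_combination (- t) * hε
  · ring
  · change w ^ (- l i) = w ^ (- l i - l j) * w ^ l j
    rw [← zpow_add₀ hw]; congr 1; ring
  · change w ^ (- l j) = w ^ (- l i - l j) * w ^ l i
    rw [← zpow_add₀ hw]; congr 1; ring

theorem moore_ne (hG : HMG (FormGroup σ (hyp q ε J₀))) (hσc : Continuous σ)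
    (hσ : ∀ x, σ (σ x) = x) {w : k} (hw : w ≠ 0) (hw1 : ‖w‖ ≠ 1) (hσw : σ w = w) (l : Fin q → ℤ)
    {i j : Fin q} (hij : i ≠ j) (hl : l i ≠ l j) : Moore (Ctr (tor q σ ε J₀ hw hσw l)) := by
  have h0 : 0 < ‖w‖ := norm_pos_iff.2 hw
  have h1 : ‖w‖ ^ (l i - l j) ≠ 1 := by
    intro h
    rw [zpow_eq_one_iff_right₀ h0.le hw1] at h
    exact hl (sub_eq_zero.1 h)
  rcases lt_or_gt_of_ne h1 with h2 | h2
  · exact moore_sub hG hσc hσ hw hσw l hij (by rw [norm_zpow]; exact h2)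
  · refine moore_sub hG hσc hσ hw hσw l hij.symm ?_
    rw [norm_zpow, ← neg_sub, _root_.zpow_neg]
    exact inv_lt_one_of_one_lt₀ h2

theorem moore_ne' (hG : HMG (FormGroup σ (hyp q ε J₀))) (hσc : Continuous σ)
    (hσ : ∀ x, σ (σ x) = x) (hε : ε * σ ε = 1) {w : k} (hw : w ≠ 0) (hw1 : ‖w‖ ≠ 1)
    (hσw : σ w = w) (l : Fin q → ℤ) {i j : Fin q} (hij : i ≠ j) (hl : l i + l j ≠ 0) :
    Moore (Ctr (tor q σ ε J₀ hw hσw l)) := by
  have h0 : 0 < ‖w‖ := norm_pos_iff.2 hw
  have h1 : ‖w‖ ^ (l i + l j) ≠ 1 := by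
    intro h
    rw [zpow_eq_one_iff_right₀ h0.le hw1] at h
    exact hl h
  rcases lt_or_gt_of_ne h1 with h2 | h2
  · exact moore_add hG hσc hσ hε hw hσw l hij (by rw [norm_zpow]; exact h2)
  · refine moore_add' hG hσc hσ hε hw hσw l hij ?_
    have h3 : - l i - l j = -(l i + l j) := by ring
    rw [norm_zpow, h3, _root_.zpow_neg]
    exact inv_lt_one_of_one_lt₀ h2

/-- **Every nontrivial diagonal element has the Moore property (Witt index at least two).** -/
theorem moore_tor (hG : HMG (FormGroup σ (hyp q ε J₀))) (hσc : Continuous σ)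
    (hσ : ∀ x, σ (σ x) = x) (hε : ε * σ ε = 1) (hq : 2 ≤ q) {w : k} (hw : w ≠ 0)
    (hw1 : ‖w‖ ≠ 1) (hσw : σ w = w) {l : Fin q → ℤ} (hl : l ≠ 0) :
    Moore (Ctr (tor q σ ε J₀ hw hσw l)) := by
  obtain ⟨i, hi⟩ := Function.ne_iff.1 hl
  haveI : Nontrivial (Fin q) := Fin.nontrivial_iff_two_le.2 hq
  obtain ⟨j, hj⟩ := exists_ne i
  by_cases h1 : l i = l j
  · refine moore_ne' hG hσc hσ hε hw hw1 hσw l hj.symm ?_
    intro h2
    apply hi
    change l i = 0
    omega
  · exact moore_ne hG hσc hσ hw hw1 hσw l hj.symm h1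

/-- the same for the inverse -/
theorem moore_tor_inv (hG : HMG (FormGroup σ (hyp q ε J₀))) (hσc : Continuous σ)
    (hσ : ∀ x, σ (σ x) = x) (hε : ε * σ ε = 1) (hq : 2 ≤ q) {w : k} (hw : w ≠ 0)
    (hw1 : ‖w‖ ≠ 1) (hσw : σ w = w) {l : Fin q → ℤ} (hl : l ≠ 0) :
    Moore (Ctr (tor q σ ε J₀ hw hσw l)⁻¹) := by
  rw [tor_inv]
  refine moore_tor hG hσc hσ hε hq hw hw1 hσw (fun h => hl ?_)
  funext i
  have := congrFun h i
  change - l i = 0 at this
  change l i = 0
  omega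

end Vale.Agent.P092.H618.MooreF
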