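import Vale.Agent.P092.H618.S2.HmiG
import Vale.Agent.P092.H618.S2.MooreF

/-!
P092 (helper618), [P2-TYPE]: `HMIA` on the concrete picture for the group of a form of Witt index
at least two, along the powers of every nontrivial diagonal element and of its inverse.
-/

set_option linter.all false

open scoped InnerProductSpace ENNReal
open Filter Topology ContinuousLinearMap MeasureTheory TopologicalSpace

namespace Vale.Agent.P092.H618.HmiF

open Vale.Agent.P092.SR Vale.Agent.P092.H160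
open Vale.Agent.P092.RC (KK pic lam₁ lam₂ XX Om Pic Moore)
open Vale.Agent.P092.H805.Row (mpE)
open Vale.Agent.P092.H618.HMK (Base Sc Tests)
open Vale.Agent.P092.H218.NR (HMIA)
open Vale.Agent.P092.H761 (Gaps)
open Vale.Agent.P092.H368.SN (Ctr)
open Vale.Agent.P092.H15 (HMG)
open Vale.Agent.P092.H303 (Idx hyp FormGroup)
open Vale.Agent.P092.H618.MooreF (tor tor_inv moore_tor moore_tor_inv)

variable {E : Type} [Group E] [TopologicalSpace E] [IsTopologicalGroup E] [LocallyCompactSpace E]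
  [SecondCountableTopology E] [T2Space E] [MeasurableSpace E] [BorelSpace E] [NoncompactSpace E]
  {Γ : Subgroup E} [DiscreteTopology Γ] [Countable Γ] [MeasurableSpace (E ⧸ Γ)]
  [BorelSpace (E ⧸ Γ)] {ν : Measure (E ⧸ Γ)} [IsProbabilityMeasure ν]
  (hν : ∀ g : E, ν.map (fun x => g • x) = ν)
  {Λ : Type} [Group Λ] [Countable Λ] {α : Γ →* (Ell2 Λ →L[ℂ] Ell2 Λ)} (hα : Frame α)
  {k : Type} [NontriviallyNormedField k] {ι : Type} [Fintype ι] [DecidableEq ι] {q : ℕ}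
  {σ : k →+* k} {ε : k} {J₀ : Matrix ι ι k}
  {S : Type} [Group S] [TopologicalSpace S] [IsTopologicalGroup S]
  {φ : FormGroup σ (hyp q ε J₀) →* E} {θ : S →* FormGroup σ (hyp q ε J₀)}

/-- **HMIA along the powers of a diagonal element.** -/
theorem hmi_tor (hΛ : ∀ g : Λ, g ≠ 1 → Set.Infinite {y : Λ | ∃ h, y = h * g * h⁻¹})
    (hφ : Continuous φ) (hθ : Continuous θ) (hS : H933.HoweMoore S)
    (hG : HMG (FormGroup σ (hyp q ε J₀))) (hσc : Continuous σ) (hσ : ∀ x, σ (σ x) = x)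
    (hε : ε * σ ε = 1) (hq : 2 ≤ q) {w : k} (hw : w ≠ 0) (hw1 : ‖w‖ ≠ 1) (hσw : σ w = w)
    {l : Fin q → ℤ} (hl : l ≠ 0) (hb : ∀ s, Commute (θ s) (tor q σ ε J₀ hw hσw l))
    {J : Type} [Fintype J] [DecidableEq J] {r : ℕ} {gap : J → Γ → ℝ} {cl : J → Fin r}
    {A : Finset (Fin r)} {i₀ : J} {mass : E → (Γ → ℝ) → ℝ}
    (hmass : ∀ g (F : Γ → ℝ), (∀ x, |F x| ≤ 1) → mass g F =
      (⟪pic hν hα g (Om ν Λ), mpE ν hα F (pic hν hα g (Om ν Λ))⟫_ℂ).re)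
    (hg : Gaps gap cl) (hT : Tests gap cl A i₀) :
    HMIA mass gap cl A i₀ (fun n => φ (tor q σ ε J₀ hw hσw l) ^ n) (φ.comp θ) (cocompact S) :=
  HmiG.hmi_gen hν hα hΛ hφ hθ hS hb (moore_tor hG hσc hσ hε hq hw hw1 hσw hl) hmass hg hT

/-- **The same along the powers of the inverse.** -/
theorem hmi_tor_inv (hΛ : ∀ g : Λ, g ≠ 1 → Set.Infinite {y : Λ | ∃ h, y = h * g * h⁻¹})
    (hφ : Continuous φ) (hθ : Continuous θ) (hS : H933.HoweMoore S)
    (hG : HMG (FormGroup σ (hyp q ε J₀))) (hσc : Continuous σ) (hσ : ∀ x, σ (σ x) = x)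
    (hε : ε * σ ε = 1) (hq : 2 ≤ q) {w : k} (hw : w ≠ 0) (hw1 : ‖w‖ ≠ 1) (hσw : σ w = w)
    {l : Fin q → ℤ} (hl : l ≠ 0) (hb : ∀ s, Commute (θ s) (tor q σ ε J₀ hw hσw l))
    {J : Type} [Fintype J] [DecidableEq J] {r : ℕ} {gap : J → Γ → ℝ} {cl : J → Fin r}
    {A : Finset (Fin r)} {i₀ : J} {mass : E → (Γ → ℝ) → ℝ}
    (hmass : ∀ g (F : Γ → ℝ), (∀ x, |F x| ≤ 1) → mass g F =
      (⟪pic hν hα g (Om ν Λ), mpE ν hα F (pic hν hα g (Om ν Λ))⟫_ℂ).re)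
    (hg : Gaps gap cl) (hT : Tests gap cl A i₀) :
    HMIA mass gap cl A i₀ (fun n => (φ (tor q σ ε J₀ hw hσw l))⁻¹ ^ n) (φ.comp θ)
      (cocompact S) :=
  HmiG.hmi_gen_inv hν hα hΛ hφ hθ hS hb (moore_tor_inv hG hσc hσ hε hq hw hw1 hσw hl) hmass hg hT

end Vale.Agent.P092.H618.HmiF
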