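import Vale.Agent.P092.H618.Hmi

/-!
P092 (helper618), Teams N and P, [P2-TYPE]: `HMIA` on the concrete picture for an arbitrary source
group: `ι₁ : G₁ → E`, `b ∈ G₁`, a Howe-Moore group `S → Z(b)`, contracted group `Ctr b` with the
Moore property in `G₁`.
-/

set_option linter.all false

open scoped InnerProductSpace ENNReal
open Filter Topology ContinuousLinearMap MeasureTheory TopologicalSpace

namespace Vale.Agent.P092.H618.HmiG

open Vale.Agent.P092.SR Vale.Agent.P092.H160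
open Vale.Agent.P092.RC (KK pic lam₁ lam₂ XX Om Pic Moore)
open Vale.Agent.P092.H805.Row (mpE)
open Vale.Agent.P092.H618.HMK (Base Sc Tests)
open Vale.Agent.P092.H618.Hmi (sc_gen)
open Vale.Agent.P092.H218.NR (HMIA)
open Vale.Agent.P092.H761 (Gaps)
open Vale.Agent.P092.H368.SN (Ctr)
open Vale.Agent.P092.H307.Gb (con_ctr nrm_ctr)

variable {E : Type} [Group E] [TopologicalSpace E] [IsTopologicalGroup E] [LocallyCompactSpace E]
  [SecondCountableTopology E] [T2Space E] [MeasurableSpace E] [BorelSpace E] [NoncompactSpace E]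
  {Γ : Subgroup E} [DiscreteTopology Γ] [Countable Γ] [MeasurableSpace (E ⧸ Γ)]
  [BorelSpace (E ⧸ Γ)] {ν : Measure (E ⧸ Γ)} [IsProbabilityMeasure ν]
  (hν : ∀ g : E, ν.map (fun x => g • x) = ν)
  {Λ : Type} [Group Λ] [Countable Λ] {α : Γ →* (Ell2 Λ →L[ℂ] Ell2 Λ)} (hα : Frame α)
  {G₁ S : Type} [Group G₁] [TopologicalSpace G₁] [IsTopologicalGroup G₁] [Group S]
  [TopologicalSpace S] [IsTopologicalGroup S] {ι₁ : G₁ →* E} {θ₁ : S →* G₁}

/-- **HMIA, any source group.** -/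
theorem hmi_gen (hΛ : ∀ g : Λ, g ≠ 1 → Set.Infinite {y : Λ | ∃ h, y = h * g * h⁻¹})
    (hι : Continuous ι₁) (hθ : Continuous θ₁) (hS : H933.HoweMoore S) {b : G₁}
    (hb : ∀ s, Commute (θ₁ s) b) (hM : Moore (Ctr b))
    {J : Type} [Fintype J] [DecidableEq J] {r : ℕ} {gap : J → Γ → ℝ} {cl : J → Fin r}
    {A : Finset (Fin r)} {i₀ : J} {mass : E → (Γ → ℝ) → ℝ}
    (hmass : ∀ g (F : Γ → ℝ), (∀ x, |F x| ≤ 1) → mass g F =
      (⟪pic hν hα g (Om ν Λ), mpE ν hα F (pic hν hα g (Om ν Λ))⟫_ℂ).re)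
    (hg : Gaps gap cl) (hT : Tests gap cl A i₀) :
    HMIA mass gap cl A i₀ (fun n => ι₁ b ^ n) (ι₁.comp θ₁) (cocompact S) := by
  have hB := H618.BaseE.baseE hν hα hΛ (θ := ι₁.comp θ₁) (hι.comp hθ) (z := fun n => ι₁ b ^ n)
    (fun N s => by
      have h1 : Commute (ι₁ (θ₁ s)) (ι₁ b) := (hb s).map ι₁
      exact (h1.pow_right N).eq) (Nb := ι₁ '' Ctr b)
    (by
      rintro _ ⟨n, hn, rfl⟩
      have h1 := (hι.tendsto 1).comp (con_ctr b n hn)
      rw [map_one] at h1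
      refine h1.congr fun N => ?_
      change ι₁ (b ^ N * n * (b ^ N)⁻¹) = _
      rw [map_mul, map_mul, map_inv, map_pow])
    (by
      rintro s _ ⟨n, hn, rfl⟩
      refine ⟨_, nrm_ctr (hb s) hn, ?_⟩
      rw [map_mul, map_mul, map_inv]
      rfl)
  exact hB.hmia hS (sc_gen hν hα hΛ hι hM) hg hmass hT

/-- the same along the powers of `b⁻¹` -/
theorem hmi_gen_inv (hΛ : ∀ g : Λ, g ≠ 1 → Set.Infinite {y : Λ | ∃ h, y = h * g * h⁻¹})
    (hι : Continuous ι₁) (hθ : Continuous θ₁) (hS : H933.HoweMoore S) {b : G₁}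
    (hb : ∀ s, Commute (θ₁ s) b) (hM : Moore (Ctr b⁻¹))
    {J : Type} [Fintype J] [DecidableEq J] {r : ℕ} {gap : J → Γ → ℝ} {cl : J → Fin r}
    {A : Finset (Fin r)} {i₀ : J} {mass : E → (Γ → ℝ) → ℝ}
    (hmass : ∀ g (F : Γ → ℝ), (∀ x, |F x| ≤ 1) → mass g F =
      (⟪pic hν hα g (Om ν Λ), mpE ν hα F (pic hν hα g (Om ν Λ))⟫_ℂ).re)
    (hg : Gaps gap cl) (hT : Tests gap cl A i₀) :
    HMIA mass gap cl A i₀ (fun n => (ι₁ b)⁻¹ ^ n) (ι₁.comp θ₁) (cocompact S) := by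
  have h := hmi_gen hν hα hΛ hι hθ hS (b := b⁻¹) (fun s => (hb s).inv_right) hM hmass hg hT
  rwa [map_inv] at h

end Vale.Agent.P092.H618.HmiG
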