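import Vale.Agent.P092.H618.S2.Fold
import Vale.Agent.P092.H618.HMI
import Vale.Agent.P092.H100.Ker6
import Vale.Agent.P092.H515.HPos1
import Vale.Agent.P092.H632.T2.Exp
import Vale.Agent.P092.H411.S2.Row

/-!
P092 (helper618), [P2-MID]: folded classes of gaps of a classical target; the mass far from the
wall of points and from the wall of maximal isotropic subspaces is small.
-/

set_option linter.all false

open scoped InnerProductSpace ENNReal
open Filter Topology Matrix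

namespace Vale.Agent.P092.H618.PosM

open Vale.Agent.P092.H515 (GSys)
open Vale.Agent.P092.H515.HP (lab lab_inj lab_lt nlab gap_le)
open Vale.Agent.P092.H933 (LocK)
open Vale.Agent.P092.H534.GK (Crt)
open Vale.Agent.P092.H221.GapsC (lg gsys_crt2_fam)
open Vale.Agent.P092.H200 Vale.Agent.P092.H761
open Vale.Agent.P092.H538 (ind ind_pos ind_neg ind_nonneg)
open Vale.Agent.P092.H261 (PingT)
open Vale.Agent.P092.H218.NR (HMIA hcc_of)
open Vale.Agent.P092.H411.S2 (pos_finalC)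
open Vale.Agent.P092.H618.HMK (Tests)
open Vale.Agent.P092.H776.NG (nmx le_nmx)
open Vale.Agent.P092.H632.T2 (xp log_xp_crt)
open Vale.Agent.P092.H100.Ker (Mrp)
open Vale.Agent.P092.H618.Fold

/-! ### The first `r` labels of one part -/

section lab

variable {I : Type} [Fintype I]

/-- the first `r` labels of the part `j` -/
noncomputable def Acl (m : I → ℕ) (j : I) {r : ℕ} (hr : r ≤ m j) : Finset (Fin (nlab m)) :=
  Finset.univ.image fun c : Fin r => lab m ⟨j, Fin.castLE hr c⟩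

theorem mem_Acl {m : I → ℕ} {j : I} {r : ℕ} {hr : r ≤ m j} {i : I} {x : Fin (m i)} :
    lab m ⟨i, x⟩ ∈ Acl m j hr ↔ i = j ∧ (x : ℕ) < r := by
  rw [Acl, Finset.mem_image]
  constructor
  · rintro ⟨c, -, h⟩
    have h1 := lab_inj m h
    obtain ⟨rfl, h2⟩ := Sigma.mk.inj_iff.1 h1
    have h3 := eq_of_heq h2
    refine ⟨rfl, ?_⟩
    rw [← h3]
    exact c.2
  · rintro ⟨rfl, h⟩
    exact ⟨⟨x, h⟩, Finset.mem_univ _, rfl⟩

theorem card_Acl {m : I → ℕ} {j : I} {r : ℕ} {hr : r ≤ m j} : (Acl m j hr).card = r := by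
  rw [Acl, Finset.card_image_of_injective, Finset.card_univ, Fintype.card_fin]
  intro c c' h
  have h1 := eq_of_heq (Sigma.mk.inj_iff.1 (lab_inj m h)).2
  exact Fin.castLE_injective hr h1

end lab

/-- The statement of `tests_gen` (helper100): the test functions of a middle gap of a classical
target. -/
def GenT (Γ : Type) [Group Γ] (k : Type) [NontriviallyNormedField k] : Prop :=
  ∀ {n : ℕ} {M : Γ → Matrix (Fin n) (Fin n) k}, Mrp M → ∀ {J : Type} [Fintype J] {R : ℕ}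
    {gap : J → Γ → ℝ} {cl : J → Fin R} {A : Finset (Fin R)} {i₀ : J} {p : ℕ},
    0 < p → 2 * p + 3 < n → ∀ {a : Γ → Fin n → k} {U U' V V' : Γ → Matrix (Fin n) (Fin n) k},
    (∀ g, Crt (M g) (a g) (U g) (U' g) (V g) (V' g)) →
    (∀ T : ℝ, ∃ T' : ℝ, ∀ g, T' ≤ gap i₀ g → ∀ l : Fin (n - 1),
      ((l : ℕ) = p ∨ (l : ℕ) = n - 2 - p) → T ≤ lg (a g) l) →
    (∀ R0 : ℝ, ∃ R : ℝ, ∀ g, (∀ x ∈ A, x < cl i₀ → x ∉ big gap cl R0 g) →
      ∀ l : Fin (n - 1), (l : ℕ) < p → lg (a g) l ≤ R) →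
    (∀ R0 : ℝ, ∃ R : ℝ, ∀ g, (∀ x ∈ A, cl i₀ < x → x ∉ big gap cl R0 g) →
      ∀ l : Fin (n - 1), p < (l : ℕ) → (l : ℕ) < n - 2 - p → lg (a g) l ≤ R) →
    (∀ R : ℝ, ∃ R1 : ℝ, ∀ g, (∀ x ∈ A, x ∈ big gap cl R1 g) →
      (∃ l : Fin (n - 1), (l : ℕ) < p ∧ R ≤ lg (a g) l) ∧
      ∃ l : Fin (n - 1), p < (l : ℕ) ∧ (l : ℕ) < n - 2 - p ∧ R ≤ lg (a g) l) →
    Tests gap cl A i₀

/-- two numbers which are close to multiples of close numbers -/
theorem gap_cmp {g g' c C L x x' : ℝ} (hc : 0 < c) (h : |g - c * x| ≤ C) (h' : |g' - c * x'| ≤ C)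
    (hx : |x - x'| ≤ L) : g' ≤ g + (c * |L| + 2 * |C|) := by
  rw [abs_le] at h h' hx
  have h1 := le_abs_self C
  have h2 := le_abs_self L
  have h3 : c * (x' - x) ≤ c * |L| := mul_le_mul_of_nonneg_left (by linarith [hx.1]) hc.le
  linarith [h.1, h'.2]

section main

variable {I : Type} [Fintype I] [DecidableEq I] {k : I → Type}
  [∀ i, NontriviallyNormedField (k i)] [∀ i, ProperSpace (k i)] {n : I → ℕ}
  {E : Type} [Group E] [TopologicalSpace E] [IsTopologicalGroup E] [MeasurableSpace E]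
  [BorelSpace E] {Γ : Type} [Group Γ] [DecidableEq Γ] {t : ℝ} {mass : E → (Γ → ℝ) → ℝ}

/-- **[P2-MID]**: the mass far from both end walls is small. -/
theorem pos_absM (hd : SharpData t mass (fun K : Set E => IsCompact K) (PingT E))
    (hk : ∀ i, LocK (k i)) (hn : ∀ i, 2 ≤ n i)
    {q : ∀ i, Γ → SpecialLinearGroup (Fin (n i)) (k i)}
    (hq : ∀ i, ∀ γ γ', ∃ c : k i, (q i (γ * γ')).1 = c • (q i γ * q i γ').1)
    (disc : ∀ C : ℝ, {γ : Γ | ∀ i, nmx (q i γ).1 ≤ C}.Finite)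
    {mm : I → ℕ} {f : ∀ i, Fin (n i - 1) → Fin (mm i)}
    (hf : ∀ i, ∃ L : ℝ, ∀ γ a U U' V V', Crt (q i γ).1 a U U' V V' → ∀ l l', f i l = f i l' →
      |lg a l - lg a l'| ≤ L)
    (j : I) {r : ℕ} (hr : 2 ≤ r) (hrn : 2 * r ≤ n j)
    (hfj : ∀ l, ((f j l : Fin (mm j)) : ℕ) = min (l : ℕ) (n j - 2 - l))
    (hL : ∃ L : ℝ, ∀ γ a U U' V V', Crt (q j γ).1 a U U' V V' →
      ∀ i, |Real.log ‖a i‖ + Real.log ‖a (Fin.rev i)‖| ≤ L)
    (hD : ∃ D : ℝ, ∀ γ a U U' V V', Crt (q j γ).1 a U U' V V' →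
      ∀ i : Fin (n j), r ≤ (i : ℕ) → Real.log ‖a i‖ ≤ D)
    (hgen : GenT Γ (k j))
    {S : Type} [Group S] [TopologicalSpace S] {θ : S →* E} (hθc : Continuous θ) {z : E} (hzθ : ∀ n s, z ^ n * θ s = θ s * z ^ n) {X : Subgroup E}
    (ht : ∀ ε : ℝ, 0 < ε → ∃ ρ : ℝ, ∀ u ∈ X,
      mass u (ind fun γ => ∃ i, i ≠ j ∧ ρ < nmx (q i γ).1) ≤ ε)
    {m : ℕ} (hm : 0 < m) (hrm : r = m + 1)
    {b : Fin (m + 1) → ℕ → E} {𝒦 : Fin (m + 1) → Set E} {bS : Fin m → ℕ → S}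
    {𝒦S : Fin m → Set S}
    (hch : GChain (fun K : Set E => IsCompact K) (PingT E) (m + 1) b 𝒦)
    (hcb : ∀ i j, i < j → ∀ N M, bS i N * bS j M = bS j M * bS i N)
    (hcK : ∀ i j, i < j → ∀ N, ∀ κ ∈ 𝒦S j, bS i N * κ = κ * bS i N)
    (hbX : ∀ i M, b i M ∈ X) (hb0 : ∀ M, b 0 M = z ^ M)
    (hbS : ∀ i M, θ (bS i M) = b i.succ M) (hKS : ∀ i, θ '' 𝒦S i = 𝒦 i.succ)
    (he : Tendsto (bS ⟨0, hm⟩) atTop (cocompact S))
    (hmi : ∀ {J : Type} [Fintype J] [DecidableEq J] {R : ℕ} {gap : J → Γ → ℝ} {cl : J → Fin R}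
      {A : Finset (Fin R)} {i₀ : J}, Gaps gap cl → Tests gap cl A i₀ →
      HMIA mass gap cl A i₀ (fun n => z ^ n) θ (cocompact S))
    {ε : ℝ} (hε : 0 < ε) :
    ∃ ρ : ℝ, ∀ᶠ N : ℕ in atTop, mass (z ^ N) (ind fun γ =>
      ρ < Real.log (xp 2 (q j γ).1) ∧
      ρ < Real.log (xp 1 (q j γ).1) - Real.log (xp r (q j γ).1)) ≤ ε := by
  classical
  haveI : Nonempty I := ⟨j⟩
  obtain ⟨gap, wt, hs, hfin, -, -, -, hcrt, -⟩ := gsys_crt2_fam hk hn q hq disc
  choose c C hc hC using hcrt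
  choose L hL' using hf
  obtain ⟨L0, hL0⟩ := hL
  obtain ⟨D, hD⟩ := hD
  have hbz : b 0 = fun n => z ^ n := funext hb0
  have hdet : ∀ γ, (q j γ).1.det ≠ 0 := fun γ => by rw [(q j γ).2]; exact one_ne_zero
  -- the classes
  obtain ⟨cl, hcl⟩ : ∃ cl : (Σ i, Fin (n i - 1)) → Fin (nlab mm),
    ∀ x, cl x = lab mm ⟨x.1, f x.1 x.2⟩ := ⟨_, fun x => rfl⟩
  have hmm : r ≤ mm j := by
    have h1 := hfj ⟨r - 1, by omega⟩
    have h2 := (f j ⟨r - 1, by omega⟩).2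
    simp only at h1
    omega
  obtain ⟨A, hA⟩ : ∃ A, A = Acl mm j hmm := ⟨_, rfl⟩
  have hAm : ∀ i (l : Fin (n i - 1)), cl ⟨i, l⟩ ∈ A ↔ i = j ∧ (f i l : ℕ) < r := fun i l => by
    rw [hA, hcl, mem_Acl]
  have hAj : ∀ (l : Fin (n j - 1)), cl ⟨j, l⟩ ∈ A ↔ min (l : ℕ) (n j - 2 - l) < r := fun l => by
    rw [hAm, hfj]; simp
  have hlt : ∀ l l' : Fin (n j - 1), cl ⟨j, l⟩ < cl ⟨j, l'⟩ ↔
      min (l : ℕ) (n j - 2 - l) < min (l' : ℕ) (n j - 2 - l') := fun l l' => by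
    rw [hcl, hcl, lab_lt, Fin.lt_def, hfj, hfj]
  have hinj : ∀ x y, cl x = cl y → ∃ i l l', x = ⟨i, l⟩ ∧ y = ⟨i, l'⟩ ∧ f i l = f i l' := by
    rintro ⟨i, l⟩ ⟨i', l'⟩ h
    rw [hcl, hcl] at h
    obtain ⟨h1, h2⟩ := Sigma.mk.inj_iff.1 (lab_inj mm h)
    simp only at h1
    subst h1
    exact ⟨i, l, l', rfl, rfl, eq_of_heq h2⟩
  have hcmp : ∀ i (l l' : Fin (n i - 1)), f i l = f i l' → ∀ γ,
      gap ⟨i, l'⟩ γ ≤ gap ⟨i, l⟩ γ + (c i * |L i| + 2 * |C i|) := by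
    intro i l l' h γ
    obtain ⟨a, U, U', V, V', H, hx⟩ := hC i γ
    exact gap_cmp (hc i) (hx l) (hx l') (hL' i γ a U U' V V' H l l' h)
  have hg : Gaps gap cl := by
    refine hs.gaps hfin cl fun R => ⟨R + ∑ i, (c i * |L i| + 2 * |C i|), fun x y hxy γ hγ => ?_⟩
    obtain ⟨i, l, l', rfl, rfl, h⟩ := hinj x y hxy
    have h1 := hcmp i l l' h γ
    have h2 : c i * |L i| + 2 * |C i| ≤ ∑ i, (c i * |L i| + 2 * |C i|) := by
      refine Finset.single_le_sum (f := fun i => c i * |L i| + 2 * |C i|) (fun i _ => ?_)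
        (Finset.mem_univ i)
      have := (hc i).le
      positivity
    linarith
  -- the gaps of the coordinate `j`
  choose a U U' V V' hcr hx using hC j
  have hgl : ∀ γ l, gap ⟨j, l⟩ γ ≤ c j * lg (a γ) l + |C j| := fun γ l => by
    have := (abs_le.1 (hx γ l)).2
    have := le_abs_self (C j)
    linarith
  have hlg : ∀ γ l, c j * lg (a γ) l ≤ gap ⟨j, l⟩ γ + |C j| := fun γ l => by
    have := (abs_le.1 (hx γ l)).1
    have := le_abs_self (C j)
    linarith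
  have hle : ∀ γ l R, gap ⟨j, l⟩ γ ≤ R → lg (a γ) l ≤ (R + |C j|) / c j := fun γ l R h => by
    rw [le_div_iff₀ (hc j)]
    have := hlg γ l
    linarith
  have hge : ∀ γ l R, (R + |C j|) / c j ≤ lg (a γ) l → R ≤ gap ⟨j, l⟩ γ := fun γ l R h => by
    rw [div_le_iff₀ (hc j)] at h
    have := (abs_le.1 (hx γ l)).1
    have := le_abs_self (C j)
    linarith
  have hge' : ∀ γ l R, c j * R + |C j| ≤ gap ⟨j, l⟩ γ → R ≤ lg (a γ) l := fun γ l R h => by
    have h1 := hgl γ l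
    have h2 : c j * R ≤ c j * lg (a γ) l := by linarith
    exact le_of_mul_le_mul_left h2 (hc j)
  have hsym : ∀ γ (i : Fin (n j)), |Real.log ‖a γ i‖ + Real.log ‖a γ (Fin.rev i)‖| ≤ L0 :=
    fun γ => hL0 γ _ _ _ _ _ (hcr γ)
  have hbnd : ∀ γ (i : Fin (n j)), r ≤ (i : ℕ) → Real.log ‖a γ i‖ ≤ D :=
    fun γ => hD γ _ _ _ _ _ (hcr γ)
  have hmidb : ∀ γ (l : Fin (n j - 1)), r ≤ min (l : ℕ) (n j - 2 - l) →
      lg (a γ) l ≤ 2 * D + L0 := fun γ l h =>
    lg_mid (hsym γ) (hbnd γ) (h.trans (min_le_left _ _)) (h.trans (min_le_right _ _))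
  have hmidg : ∀ γ (l : Fin (n j - 1)), r ≤ min (l : ℕ) (n j - 2 - l) →
      gap ⟨j, l⟩ γ ≤ c j * (2 * D + L0) + |C j| := fun γ l h => by
    have h1 := hgl γ l
    have h2 := mul_le_mul_of_nonneg_left (hmidb γ l h) (hc j).le
    linarith
  -- the set off the coordinate
  have hAs : ∀ ε : ℝ, 0 < ε → ∃ R : ℝ, ∀ u, HS b (m + 1) u →
      mass u (ind fun g => ∃ x, x ∉ A ∧ x ∈ big gap cl R g) ≤ ε := by
    intro ε hε
    obtain ⟨ρ, hρ⟩ := ht ε hε
    choose R hR using fun i => gap_le (q := q i) (gap := fun l γ => gap ⟨i, l⟩ γ) (hc i)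
      (hC i) ρ
    refine ⟨∑ i, |R i| + (abs (c j * (2 * D + L0) + |C j|) + 1), fun u hu => ?_⟩
    have hmem : u ∈ X := by
      have : ∀ {p : ℕ} {u : E}, HS b p u → u ∈ X := by
        intro p u hu
        induction hu with
        | one => exact one_mem _
        | step hj M hh ih => exact mul_mem ih (hbX _ _)
      exact this hu
    refine (hd.ind_mono u fun γ hγ => ?_).trans (hρ u hmem)
    obtain ⟨x, hxA, hxb⟩ := hγ
    obtain ⟨⟨i, l⟩, rfl, hl⟩ := mem_big.1 hxb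
    by_cases hij : i = j
    · subst hij
      exfalso
      rw [hAj] at hxA
      have h1 := hmidg γ l (not_lt.1 hxA)
      have h2 : 0 ≤ ∑ i, |R i| := Finset.sum_nonneg fun i _ => abs_nonneg _
      have h3 := le_abs_self (c i * (2 * D + L0) + |C i|)
      linarith
    · refine ⟨i, hij, ?_⟩
      by_contra hcon
      rw [not_lt] at hcon
      have h1 := hR i γ (fun x y => (le_nmx (q i γ).1 x y).trans hcon) l
      have h2 : |R i| ≤ ∑ i, |R i| :=
        Finset.single_le_sum (f := fun i => |R i|) (fun i _ => abs_nonneg _) (Finset.mem_univ i)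
      have h3 := le_abs_self (R i)
      have h4 := abs_nonneg (c j * (2 * D + L0) + |C j|)
      linarith
  -- the middle gaps
  obtain ⟨Mid, hMid⟩ : ∃ Mid : (Σ i, Fin (n i - 1)) → Prop, ∀ x, Mid x ↔
      ∃ l : Fin (n j - 1), 0 < (l : ℕ) ∧ (l : ℕ) + 1 < r ∧ x = ⟨j, l⟩ :=
    ⟨_, fun x => Iff.rfl⟩
  have hGH : ∀ R : ℝ, ∃ ρ : ℝ, ∀ γ, ρ < Real.log (xp 2 (q j γ).1) →
      ρ < Real.log (xp 1 (q j γ).1) - Real.log (xp r (q j γ).1) →
      (2 ≤ (big gap cl R γ).card ∨ ∃ i, Mid i ∧ R ≤ gap i γ) := by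
    intro R
    obtain ⟨B, hB⟩ : ∃ B : ℝ, B = (R + |C j|) / c j := ⟨_, rfl⟩
    obtain ⟨nn, hnn⟩ : ∃ nn : ℝ, nn = 2 * Real.log (n j) := ⟨_, rfl⟩
    have hn0 : 0 ≤ nn := by
      rw [hnn]
      exact mul_nonneg zero_le_two (Real.log_natCast_nonneg _)
    refine ⟨2 * nn + |D| + r * |B|, fun γ h1 h2 => ?_⟩
    have hB1 := le_abs_self B
    have hB2 := abs_nonneg B
    have hD1 := le_abs_self D
    have hD2 := abs_nonneg D
    have hrB : 0 ≤ (r : ℝ) * |B| := by positivity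
    have k1 := (abs_le.1 (log_xp_crt (hdet γ) (hcr γ) (d := 1) (by omega))).2
    have k0 := (abs_le.1 (log_xp_crt (hdet γ) (hcr γ) (d := 0) (by omega))).2
    obtain ⟨r', rfl⟩ : ∃ r', r = r' + 1 := ⟨r - 1, by omega⟩
    have kr := (abs_le.1 (log_xp_crt (hdet γ) (hcr γ) (d := r') (by omega))).1
    rw [← hnn] at k1 k0 kr
    have hr1 : (r' : ℝ) * |B| ≤ ((r' + 1 : ℕ) : ℝ) * |B| := by
      push_cast
      nlinarith
    -- a large gap among `1, …, r - 1`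
    obtain ⟨l₁, h11, h12, h13⟩ : ∃ l : Fin (n j - 1), 1 ≤ (l : ℕ) ∧ (l : ℕ) < r' + 1 ∧
        B < lg (a γ) l := by
      by_contra hcon
      push Not at hcon
      have h3 := sum_lg (a := a γ) (p := 1) (q := r' + 1) (R := |B|) (by omega) (by omega)
        fun l hl hl' => (hcon l hl hl').trans hB1
      have h4 := hbnd γ ⟨r' + 1, by omega⟩ le_rfl
      have e : ((r' + 1 - 1 : ℕ) : ℝ) = r' := by norm_num
      rw [e] at h3
      linarith
    -- a large gap among `0, …, r - 2`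
    obtain ⟨l₂, h22, h23⟩ : ∃ l : Fin (n j - 1), (l : ℕ) < r' ∧ B < lg (a γ) l := by
      by_contra hcon
      push Not at hcon
      have h3 := sum_lg (a := a γ) (p := 0) (q := r') (R := |B|) (by omega) (by omega)
        fun l hl hl' => (hcon l hl').trans hB1
      rw [Nat.sub_zero] at h3
      linarith
    rw [hB] at h13 h23
    have g1 := hge γ l₁ R h13.le
    have g2 := hge γ l₂ R h23.le
    by_cases h12e : l₁ = l₂
    · subst h12e
      exact Or.inr ⟨⟨j, l₁⟩, (hMid _).2 ⟨l₁, by omega, by omega, rfl⟩, g1⟩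
    · refine Or.inl (Finset.one_lt_card.2 ⟨_, mem_big.2 ⟨⟨j, l₁⟩, rfl, g1⟩, _,
        mem_big.2 ⟨⟨j, l₂⟩, rfl, g2⟩, fun h => h12e ?_⟩)
      obtain ⟨i, l, l', e1, e2, h3⟩ := hinj _ _ h
      obtain ⟨rfl, e1⟩ := Sigma.mk.inj_iff.1 e1
      obtain ⟨-, e2⟩ := Sigma.mk.inj_iff.1 e2
      rw [← eq_of_heq e1, ← eq_of_heq e2] at h3
      have h4 := congrArg Fin.val h3
      rw [hfj, hfj] at h4
      apply Fin.ext
      omega
  -- the test functions
  have hHM : ∀ i₀, Mid i₀ → HMIA mass gap cl A i₀ (b 0) θ (cocompact S) := by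
    intro i₀ h
    obtain ⟨p, hp0, hp1, rfl⟩ := (hMid _).1 h
    rw [hbz]
    refine hmi hg ?_
    have hM : Mrp fun γ => (q j γ).1 :=
      { det := hdet
        mul := fun g h => by
          obtain ⟨c', hc'⟩ := hq j g h
          refine ⟨c', ?_, hc'⟩
          rintro rfl
          haveI : Nonempty (Fin (n j)) := ⟨⟨0, by omega⟩⟩
          have h1 : (q j (g * h)).1.det = 1 := (q j (g * h)).2
          rw [hc', zero_smul, Matrix.det_zero] at h1
          exact zero_ne_one h1 }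
    refine hgen hM (p := (p : ℕ)) hp0 (by omega) hcr (fun T => ?_) (fun R0 => ?_) (fun R0 => ?_)
      fun R => ?_
    · refine ⟨c j * T + |C j| + (c j * |L j| + 2 * |C j|), fun g hg' l hl => ?_⟩
      have e : f j p = f j l := by
        apply Fin.ext
        rw [hfj, hfj]
        rcases hl with hl | hl <;> omega
      have h1 := hcmp j l p e.symm g
      exact hge' g l T (by linarith)
    · refine ⟨(R0 + |C j|) / c j, fun g hg' l hl => ?_⟩
      have h1 := hg' (cl ⟨j, l⟩) ((hAj l).2 (by omega)) ((hlt _ _).2 (by omega))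
      rw [mem_big] at h1
      push Not at h1
      exact hle g l R0 (h1 ⟨j, l⟩ rfl).le
    · refine ⟨max ((R0 + |C j|) / c j) (2 * D + L0), fun g hg' l hl1 hl2 => ?_⟩
      by_cases hlr : min (l : ℕ) (n j - 2 - l) < r
      · have h1 := hg' (cl ⟨j, l⟩) ((hAj l).2 hlr) ((hlt _ _).2 (by omega))
        rw [mem_big] at h1
        push Not at h1
        exact (hle g l R0 (h1 ⟨j, l⟩ rfl).le).trans (le_max_left _ _)
      · exact (hmidb g l (not_lt.1 hlr)).trans (le_max_right _ _)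
    · refine ⟨c j * R + |C j| + (c j * |L j| + 2 * |C j|), fun g hg' => ?_⟩
      have key : ∀ l : Fin (n j - 1), (l : ℕ) < r → R ≤ lg (a g) l := fun l hl => by
        have h1 := hg' (cl ⟨j, l⟩) ((hAj l).2 (by omega))
        obtain ⟨y, hy, hy2⟩ := mem_big.1 h1
        obtain ⟨i, l1, l2, rfl, e2, h3⟩ := hinj _ _ hy
        obtain ⟨rfl, e2⟩ := Sigma.mk.inj_iff.1 e2
        rw [← eq_of_heq e2] at h3
        have h4 := hcmp j l l1 h3.symm g
        exact hge' g l R (by linarith)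
      refine ⟨⟨⟨0, by omega⟩, hp0, key _ (by simp only; omega)⟩,
        ⟨⟨r - 1, by omega⟩, by simp only; omega, by simp only; omega,
          key _ (by simp only; omega)⟩⟩
  have hcard : A.card = m + 1 := by rw [hA, card_Acl, hrm]
  obtain ⟨ρ, hρ⟩ := pos_finalC (S := S) (σ := θ) (A := A)
    hd hg (fun θ _ _ => hs.geo' hfin θ) hch hm hcard hAs (fun n s => by rw [hb0]; exact hzθ n s)
    hcb hcK hbS hKS (hcc_of hθc) he hHM hGH hε
  exact ⟨ρ, hρ.mono fun n hn => by rw [hb0] at hn; exact hn⟩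

end main

end Vale.Agent.P092.H618.PosM
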