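import Vale.Agent.P092.H515.FormT
import Vale.Agent.P092.H534.CartN
import Vale.Agent.P092.H221.GapsC

/-!
P092 (helper618), [P2-MID]: the Cartan numbers of an isometry of a form are symmetric and bounded
beyond the Witt index; the folded gaps.
-/

set_option linter.all false

open Matrix

namespace Vale.Agent.P092.H618.Fold

open Vale.Agent.P092.H534.GK (Crt)
open Vale.Agent.P092.H515 (Dec exists_bound exists_le_all)
open Vale.Agent.P092.H221.GapsC (lg)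

variable {k : Type} [NontriviallyNormedField k] {n : ℕ}

/-- a bounded Cartan decomposition in the letters of `H515` -/
theorem dec_of {h : Matrix (Fin n) (Fin n) k} {a : Fin n → k}
    {U U' V V' : Matrix (Fin n) (Fin n) k} (H : Crt h a U U' V V') (hd : h.det ≠ 0) :
    Dec 1 h U U' V V' a :=
  ⟨H.uu, H.vv, H.hU, H.hU', H.hV, H.hV', H.eq, H.ne hd, H.anti⟩

/-- the transpose -/
theorem crt_tr {h : Matrix (Fin n) (Fin n) k} {a : Fin n → k}
    {U U' V V' : Matrix (Fin n) (Fin n) k} (H : Crt h a U U' V V') :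
    Crt hᵀ a Vᵀ V'ᵀ Uᵀ U'ᵀ :=
  ⟨fun i j => H.hV j i, fun i j => H.hV' j i, fun i j => H.hU j i, fun i j => H.hU' j i,
    by rw [← transpose_mul, H.vv', transpose_one], by rw [← transpose_mul, H.uu', transpose_one],
    H.anti, by rw [H.eq, transpose_mul, transpose_mul, diagonal_transpose, Matrix.mul_assoc]⟩

variable {σ : k →+* k} {J : Matrix (Fin n) (Fin n) k}

/-- isometries on columns -/
def IsoC (σ : k →+* k) (J h : Matrix (Fin n) (Fin n) k) : Prop := (h.map σ)ᵀ * J * h = J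

/-- isometries on rows -/
def IsoR (σ : k →+* k) (J h : Matrix (Fin n) (Fin n) k) : Prop := h * J * (h.map σ)ᵀ = J

theorem isoC_tr {h : Matrix (Fin n) (Fin n) k} (H : IsoC σ J h) : IsoR σ Jᵀ hᵀ := by
  have h1 := congrArg Matrix.transpose H
  rw [transpose_mul, transpose_mul, transpose_transpose, ← Matrix.mul_assoc] at h1
  change hᵀ * Jᵀ * ((hᵀ).map σ)ᵀ = Jᵀ
  rw [transpose_map, transpose_transpose]
  exact h1

/-- **The Cartan numbers of an isometry are symmetric.** -/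
theorem sym_crt (hσ : ∀ x, ‖σ x‖ = ‖x‖) (hJ : J.det ≠ 0) :
    ∃ L : ℝ, 0 ≤ L ∧ ∀ (h : Matrix (Fin n) (Fin n) k) a U U' V V', Crt h a U U' V V' →
      h.det ≠ 0 → IsoR σ J h → ∀ i : Fin n, |Real.log ‖a i‖ + Real.log ‖a (Fin.rev i)‖| ≤ L := by
  obtain ⟨B, hB0, hB⟩ : ∃ B : ℝ, 0 ≤ B ∧ ∀ i j, ‖J i j‖ ≤ B := by
    obtain ⟨B, hB0, hB⟩ := exists_le_all (I := Fin n × Fin n) fun p => ‖J p.1 p.2‖
    exact ⟨B, hB0, fun i j => hB (i, j)⟩
  obtain ⟨B', hB0', hB'⟩ : ∃ B : ℝ, 0 ≤ B ∧ ∀ i j, ‖J⁻¹ i j‖ ≤ B := by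
    obtain ⟨B, hB0, hB⟩ := exists_le_all (I := Fin n × Fin n) fun p => ‖J⁻¹ p.1 p.2‖
    exact ⟨B, hB0, fun i j => hB (i, j)⟩
  have hJJ : J * J⁻¹ = 1 := Matrix.mul_nonsing_inv J (isUnit_iff_ne_zero.2 hJ)
  obtain ⟨C1, hC1⟩ : ∃ C1 : ℝ, C1 = (n * (n * ((1 : ℝ) * (n * (max B B' * 1))))) *
    (n * (n * ((n * (max B B' * 1)) * 1))) := ⟨_, rfl⟩
  refine ⟨|Real.log C1|, abs_nonneg _, fun h a U U' V V' H hd hI i => ?_⟩
  have hD := dec_of H hd
  obtain ⟨h1, h2⟩ := hD.symm_le zero_le_one hσ hJJ (le_max_of_le_left hB0 : 0 ≤ max B B')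
    (fun i j => (hB i j).trans (le_max_left _ _))
    (fun i j => (hB' i j).trans (le_max_right _ _)) hI hC1 i
  have hp1 : 0 < ‖a i‖ := H.pos hd i
  have hp2 : 0 < ‖a (Fin.rev i)‖ := H.pos hd _
  rw [← Real.log_mul hp1.ne' hp2.ne']
  have hp : 0 < ‖a i‖ * ‖a (Fin.rev i)‖ := mul_pos hp1 hp2
  have hCp : 0 < C1 := by
    by_contra hneg
    have := mul_nonpos_of_nonpos_of_nonneg (not_lt.1 hneg) hp.le
    linarith
  have hL := le_abs_self (Real.log C1)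
  rw [abs_le]
  constructor
  · have h3 := Real.log_le_log one_pos h1
    rw [Real.log_one, Real.log_mul hCp.ne' hp.ne'] at h3
    linarith
  · exact (Real.log_le_log hp h2).trans hL

/-- the mirror gap -/
theorem lg_rev {a : Fin n → k} {L : ℝ}
    (hL : ∀ i : Fin n, |Real.log ‖a i‖ + Real.log ‖a (Fin.rev i)‖| ≤ L) {x y : Fin (n - 1)}
    (hxy : (x : ℕ) + y = n - 2) : |lg a x - lg a y| ≤ 2 * L := by
  have hx := x.2
  have hy := y.2
  have h1 := hL ⟨x, by omega⟩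
  have h2 := hL ⟨(x : ℕ) + 1, by omega⟩
  have e1 : Fin.rev (⟨x, by omega⟩ : Fin n) = ⟨(y : ℕ) + 1, by omega⟩ := by
    ext; rw [Fin.val_rev]; simp only; omega
  have e2 : Fin.rev (⟨(x : ℕ) + 1, by omega⟩ : Fin n) = ⟨y, by omega⟩ := by
    ext; rw [Fin.val_rev]; simp only; omega
  rw [e1] at h1
  rw [e2] at h2
  rw [abs_le] at h1 h2 ⊢
  unfold lg
  constructor <;> linarith [h1.1, h1.2, h2.1, h2.2]

/-- **The Cartan numbers are bounded beyond the Witt index.** -/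
theorem bnd_crt [ProperSpace k] (hσ : ∀ x, ‖σ x‖ = ‖x‖) {r : ℕ}
    (hiso : ∀ v : Fin (r + 1) → Fin n → k, LinearIndependent k v →
      ∃ i j, v i ⬝ᵥ (J *ᵥ (fun l => σ (v j l))) ≠ 0) :
    ∃ D : ℝ, 0 ≤ D ∧ ∀ (h : Matrix (Fin n) (Fin n) k) a U U' V V', Crt h a U U' V V' →
      h.det ≠ 0 → IsoR σ J h → ∀ i : Fin n, r ≤ (i : ℕ) → Real.log ‖a i‖ ≤ D := by
  by_cases hr : r < n
  · obtain ⟨C2, hC2⟩ := exists_bound hr hσ hiso (zero_le_one : (0 : ℝ) ≤ 1)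
    refine ⟨Real.log (max C2 1), Real.log_nonneg (le_max_right _ _),
      fun h a U U' V V' H hd hI i hi => ?_⟩
    refine Real.log_le_log (H.pos hd i) ?_
    refine le_trans ?_ (le_max_left _ _)
    exact (H.anti (show (⟨r, hr⟩ : Fin n) ≤ i from hi)).trans
      (hC2 _ _ _ _ _ a (dec_of H hd) hI)
  · exact ⟨0, le_rfl, fun h a U U' V V' _ _ _ i hi => absurd (lt_of_le_of_lt hi i.2) hr⟩

/-- the middle gaps are bounded -/
theorem lg_mid {a : Fin n → k} {L D : ℝ} {r : ℕ}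
    (hL : ∀ i : Fin n, |Real.log ‖a i‖ + Real.log ‖a (Fin.rev i)‖| ≤ L)
    (hD : ∀ i : Fin n, r ≤ (i : ℕ) → Real.log ‖a i‖ ≤ D) {x : Fin (n - 1)} (hx : r ≤ (x : ℕ))
    (hx' : r ≤ n - 2 - (x : ℕ)) : lg a x ≤ 2 * D + L := by
  have h0 := x.2
  have h1 := hD ⟨x, by omega⟩ hx
  have h2 := (abs_le.1 (hL ⟨(x : ℕ) + 1, by omega⟩)).1
  have h3 := hD (Fin.rev ⟨(x : ℕ) + 1, by omega⟩) (by rw [Fin.val_rev]; simp only; omega)
  unfold lg
  linarith

/-- sums of consecutive gaps -/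
theorem sum_lg {a : Fin n → k} {R : ℝ} {p : ℕ} : ∀ {q : ℕ} (hpq : p ≤ q) (hq : q < n),
    (∀ l : Fin (n - 1), p ≤ (l : ℕ) → (l : ℕ) < q → lg a l ≤ R) →
    Real.log ‖a ⟨p, by omega⟩‖ - Real.log ‖a ⟨q, hq⟩‖ ≤ (q - p : ℕ) * R
  | 0, hpq, hq, h => by
    obtain rfl : p = 0 := by omega
    simp
  | q + 1, hpq, hq, h => by
    rcases Nat.lt_or_ge p (q + 1) with h1 | h1
    · have h2 := sum_lg (p := p) (q := q) (by omega) (by omega)
        fun l hl hl' => h l hl (by omega)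
      have h3 := h ⟨q, by omega⟩ (by simp only; omega) (by simp only; omega)
      unfold lg at h3
      have e : ((q + 1 - p : ℕ) : ℝ) = ((q - p : ℕ) : ℝ) + 1 := by
        rw [Nat.succ_sub (by omega)]
        push_cast
        ring
      rw [e, add_mul, one_mul]
      simp only at h3
      linarith
    · obtain rfl : p = q + 1 := by omega
      simp

end Vale.Agent.P092.H618.Fold
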