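import Vale.Agent.P092.H714.SpM
import Vale.Agent.P092.H307.Gb.Inst

/-!
P092 (helper618), [P2-TYPE]: the contracted elements of `b` have the Moore property in every group
with the Howe-Moore property (group form) which contains an unbounded one-parameter family
contracted by `b`.
-/

set_option linter.all false

open Filter Topology

namespace Vale.Agent.P092.H618.MooreR

open Vale.Agent.P092.RC (Moore)
open Vale.Agent.P092.H368.SN (Ctr)
open Vale.Agent.P092.H15 (HMG)
open Vale.Agent.P092.H714.Sp (moore_of_tendsto tendsto_cocompact_of)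

variable {G : Type} [Group G] [TopologicalSpace G] [IsTopologicalGroup G] {k : Type} [NontriviallyNormedField k]

theorem pow_root {x : k → G} {c : k} {b : G} (hb : ∀ s, b * x s = x (c * s) * b) (i : ℕ) (s : k) :
    b ^ i * x s * (b ^ i)⁻¹ = x (c ^ i * s) := by
  induction i generalizing s with
  | zero => simp
  | succ i ih =>
    have h1 : b * x s * b⁻¹ = x (c * s) := by rw [hb, mul_inv_cancel_right]
    calc b ^ (i + 1) * x s * (b ^ (i + 1))⁻¹ = b ^ i * (b * x s * b⁻¹) * (b ^ i)⁻¹ := by
          rw [pow_succ]; group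
      _ = x (c ^ (i + 1) * s) := by rw [h1, ih, pow_succ, mul_assoc]

theorem mem_ctr {x : k → G} (hx : Continuous x) (h0 : x 0 = 1) {c : k} (hc : ‖c‖ < 1) {b : G}
    (hb : ∀ s, b * x s = x (c * s) * b) (s : k) : x s ∈ Ctr b := by
  have h1 : Tendsto (fun i : ℕ => c ^ i * s) atTop (𝓝 0) := by
    have := (tendsto_pow_atTop_nhds_zero_of_norm_lt_one hc).mul_const s
    rwa [zero_mul] at this
  have h2 := (hx.tendsto 0).comp h1
  rw [h0] at h2
  exact h2.congr fun i => (pow_root hb i s).symm

/-- **Moore property of `Ctr b`.** -/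
theorem moore_ctr_root (h : HMG G) {x : k → G} (hx : Continuous x) (h0 : x 0 = 1) {c : k}
    (hc : ‖c‖ < 1) {b : G} (hb : ∀ s, b * x s = x (c * s) * b) {f : G → ℝ} (hf : Continuous f)
    (hfx : ∀ s, ‖s‖ ≤ f (x s)) : Moore (Ctr b) := by
  obtain ⟨t, ht⟩ := NormedField.exists_one_lt_norm k
  refine moore_of_tendsto h (l := atTop) (b := fun i : ℕ => x (t ^ i))
    (tendsto_cocompact_of hf ?_) (Eventually.of_forall fun i => mem_ctr hx h0 hc hb _)
  refine tendsto_atTop_mono (fun i => hfx (t ^ i)) ?_
  simp only [norm_pow]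
  exact tendsto_pow_atTop_atTop_of_one_lt ht

end Vale.Agent.P092.H618.MooreR
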