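import Vale.Agent.P092.H618.S2.PosM
import Vale.Agent.P092.H100.Mid8

/-!
P092 (helper618), [P2-MID]: `pos_absM` for isometry groups of forms: the mass far from the wall of
points and far from the wall of maximal isotropic subspaces is small.
-/

set_option linter.all false

open scoped InnerProductSpace ENNReal
open Filter Topology Matrix

namespace Vale.Agent.P092.H618.PosF

open Vale.Agent.P092.H515 (GSys)
open Vale.Agent.P092.H933 (LocK)
open Vale.Agent.P092.H534.GK (Crt)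
open Vale.Agent.P092.H221.GapsC (lg)
open Vale.Agent.P092.H200 Vale.Agent.P092.H761
open Vale.Agent.P092.H538 (ind ind_pos ind_neg ind_nonneg)
open Vale.Agent.P092.H261 (PingT)
open Vale.Agent.P092.H218.NR (HMIA)
open Vale.Agent.P092.H618.HMK (Tests)
open Vale.Agent.P092.H776.NG (nmx le_nmx)
open Vale.Agent.P092.H337.NG (en m2 en_pos m2_pos)
open Vale.Agent.P092.H632.T2 (xp le_xp xp_pos)
open Vale.Agent.P092.H899.T (xp_one xp_two)
open Vale.Agent.P092.H618.Fold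
open Vale.Agent.P092.H618.PosM (GenT pos_absM)

/-- helper100's test functions -/
theorem genT_of {Γ : Type} [Group Γ] {k : Type} [NontriviallyNormedField k] [ProperSpace k] :
    GenT Γ k := by
  intro n M hM J _ R gap cl A i₀ p hp hpn a U U' V V' hcrt h1 h2 h3 h4
  exact H100.Mid.tests_gen hM hcrt (p := p) (pf := ⟨p, by omega⟩) (pe := ⟨n - 2 - p, by omega⟩)
    rfl rfl (by omega) (fun T => by
      obtain ⟨T', hT'⟩ := h1 T
      exact ⟨T', fun g hg => ⟨hT' g hg _ (Or.inl rfl), hT' g hg _ (Or.inr rfl)⟩⟩) h2 h3 h4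

/-- the gauges of helper534 / helper632 are dominated by the expansion numbers -/
theorem gau_le {k : Type} [NontriviallyNormedField k] {n : ℕ} (hn : 2 ≤ n)
    (z : SpecialLinearGroup (Fin n) k) :
    2 * Real.log (m2 z.1) - 2 * Real.log (en z.1) ≤ 2 * Real.log (xp 2 z.1) + 2 * Real.log 4 ∧
    Real.log (en z.1) ≤ Real.log (xp 1 z.1) := by
  haveI : NeZero n := ⟨by omega⟩
  have he := en_pos (by omega) z
  have hm := m2_pos hn z
  have h1 := Real.log_le_log (by positivity) (le_xp (by omega) (xp_two hn z))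
  have h2 := Real.log_le_log he (le_xp le_rfl (xp_one z))
  rw [Real.log_div hm.ne' (by positivity), Real.log_mul (by norm_num) he.ne'] at h1
  exact ⟨by linarith, h2⟩

section main

variable {I : Type} [Fintype I] [DecidableEq I] {k : I → Type}
  [∀ i, NontriviallyNormedField (k i)] [∀ i, ProperSpace (k i)] {n : I → ℕ}
  {E : Type} [Group E] [TopologicalSpace E] [IsTopologicalGroup E] [MeasurableSpace E]
  [BorelSpace E] {Γ : Type} [Group Γ] [DecidableEq Γ] {t : ℝ} {mass : E → (Γ → ℝ) → ℝ}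

/-- **[P2-MID], isometry groups of forms**, any masses, any finite family of targets. -/
theorem pos_frm (hd : SharpData t mass (fun K : Set E => IsCompact K) (PingT E))
    (hk : ∀ i, LocK (k i)) (hn : ∀ i, 2 ≤ n i)
    {q : ∀ i, Γ → SpecialLinearGroup (Fin (n i)) (k i)}
    (hq : ∀ i, ∀ γ γ', ∃ c : k i, (q i (γ * γ')).1 = c • (q i γ * q i γ').1)
    (disc : ∀ C : ℝ, {γ : Γ | ∀ i, nmx (q i γ).1 ≤ C}.Finite)
    {σ : ∀ i, k i →+* k i} (hσ : ∀ i x, ‖σ i x‖ = ‖x‖) {J : ∀ i, Matrix (Fin (n i)) (Fin (n i)) (k i)}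
    (hJ : ∀ i, (J i).det ≠ 0) (hI : ∀ i γ, (q i γ).1 * J i * ((q i γ).1.map (σ i))ᵀ = J i)
    (j : I) {r : ℕ} (hr : 2 ≤ r) (hrn : 2 * r ≤ n j)
    (hiso : ∀ v : Fin (r + 1) → Fin (n j) → k j, LinearIndependent (k j) v →
      ∃ i i', v i ⬝ᵥ (J j *ᵥ (fun l => σ j (v i' l))) ≠ 0)
    {S : Type} [Group S] [TopologicalSpace S] {θ : S →* E} (hθc : Continuous θ) {z : E}
    (hzθ : ∀ n s, z ^ n * θ s = θ s * z ^ n) {X : Subgroup E}
    (ht : ∀ ε : ℝ, 0 < ε → ∃ ρ : ℝ, ∀ u ∈ X,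
      mass u (ind fun γ => ∃ i, i ≠ j ∧ ρ < nmx (q i γ).1) ≤ ε)
    {m : ℕ} (hm : 0 < m) (hrm : r = m + 1)
    {b : Fin (m + 1) → ℕ → E} {𝒦 : Fin (m + 1) → Set E} {bS : Fin m → ℕ → S}
    {𝒦S : Fin m → Set S}
    (hch : GChain (fun K : Set E => IsCompact K) (PingT E) (m + 1) b 𝒦)
    (hcb : ∀ i j, i < j → ∀ N M, bS i N * bS j M = bS j M * bS i N)
    (hcK : ∀ i j, i < j → ∀ N, ∀ κ ∈ 𝒦S j, bS i N * κ = κ * bS i N)
    (hbX : ∀ i M, b i M ∈ X) (hb0 : ∀ M, b 0 M = z ^ M)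
    (hbS : ∀ i M, θ (bS i M) = b i.succ M) (hKS : ∀ i, θ '' 𝒦S i = 𝒦 i.succ)
    (he : Tendsto (bS ⟨0, hm⟩) atTop (cocompact S))
    (hmi : ∀ {J : Type} [Fintype J] [DecidableEq J] {R : ℕ} {gap : J → Γ → ℝ} {cl : J → Fin R}
      {A : Finset (Fin R)} {i₀ : J}, Gaps gap cl → Tests gap cl A i₀ →
      HMIA mass gap cl A i₀ (fun n => z ^ n) θ (cocompact S))
    {ε : ℝ} (hε : 0 < ε) :
    ∃ ρ : ℝ, ∀ᶠ N : ℕ in atTop, mass (z ^ N) (ind fun γ =>
      ρ < 2 * Real.log (m2 (q j γ).1) - 2 * Real.log (en (q j γ).1) ∧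
      ρ < Real.log (en (q j γ).1) - Real.log (xp r (q j γ).1)) ≤ ε := by
  choose L hL0 hL using fun i => sym_crt (J := J i) (hσ i) (hJ i)
  obtain ⟨D, hD0, hD⟩ := bnd_crt (J := J j) (hσ j) hiso
  have hdet : ∀ i γ, (q i γ).1.det ≠ 0 := fun i γ => by rw [(q i γ).2]; exact one_ne_zero
  obtain ⟨ρ, hρ⟩ := pos_absM hd hk hn hq disc (mm := n)
    (f := fun i l => ⟨min (l : ℕ) (n i - 2 - l), by have := l.2; omega⟩)
    (fun i => ⟨2 * L i, fun γ a U U' V V' H l l' hll => by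
      have h1 : min (l : ℕ) (n i - 2 - l) = min (l' : ℕ) (n i - 2 - l') := congrArg Fin.val hll
      have h2 := l.2
      have h3 := l'.2
      rcases (show (l : ℕ) = l' ∨ (l : ℕ) + l' = n i - 2 by omega) with h | h
      · rw [Fin.ext h, sub_self, abs_zero]
        have := hL0 i
        linarith
      · exact lg_rev (hL i _ a U U' V V' H (hdet i γ) (hI i γ)) h⟩) j hr hrn (fun l => rfl)
    ⟨L j, fun γ a U U' V V' H => hL j _ a U U' V V' H (hdet j γ) (hI j γ)⟩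
    ⟨D, fun γ a U U' V V' H => hD _ a U U' V V' H (hdet j γ) (hI j γ)⟩ genT_of hθc hzθ ht hm hrm
    hch hcb hcK hbX hb0 hbS hKS he hmi hε
  refine ⟨max (2 * ρ + 2 * Real.log 4) ρ, hρ.mono fun N hN => (hd.ind_mono _ fun γ hγ => ?_).trans hN⟩
  obtain ⟨h1, h2⟩ := hγ
  obtain ⟨h3, h4⟩ := gau_le (hn j) (q j γ)
  have h5 := le_max_left (2 * ρ + 2 * Real.log 4) ρ
  have h6 := le_max_right (2 * ρ + 2 * Real.log 4) ρ
  constructor <;> linarith

end main

section one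

variable {k : Type} [NontriviallyNormedField k] [ProperSpace k] {n : ℕ}
  {E : Type} [Group E] [TopologicalSpace E] [IsTopologicalGroup E] [MeasurableSpace E]
  [BorelSpace E] {Γ : Type} [Group Γ] [DecidableEq Γ] {t : ℝ} {mass : E → (Γ → ℝ) → ℝ}

/-- **[P2-MID], one target.** -/
theorem pos_frm1 (hd : SharpData t mass (fun K : Set E => IsCompact K) (PingT E))
    (hk : LocK k) {q : Γ → SpecialLinearGroup (Fin n) k}
    (hq : ∀ γ γ', ∃ c : k, (q (γ * γ')).1 = c • (q γ * q γ').1)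
    (disc : ∀ C : ℝ, {γ : Γ | en (q γ).1 ≤ C}.Finite)
    {σ : k →+* k} (hσ : ∀ x, ‖σ x‖ = ‖x‖) {J : Matrix (Fin n) (Fin n) k}
    (hJ : J.det ≠ 0) (hI : ∀ γ, (q γ).1 * J * ((q γ).1.map σ)ᵀ = J)
    {r : ℕ} (hr : 2 ≤ r) (hrn : 2 * r ≤ n)
    (hiso : ∀ v : Fin (r + 1) → Fin n → k, LinearIndependent k v →
      ∃ i i', v i ⬝ᵥ (J *ᵥ (fun l => σ (v i' l))) ≠ 0)
    {S : Type} [Group S] [TopologicalSpace S] {θ : S →* E} (hθc : Continuous θ) {z : E}
    (hzθ : ∀ n s, z ^ n * θ s = θ s * z ^ n)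
    {m : ℕ} (hm : 0 < m) (hrm : r = m + 1)
    {b : Fin (m + 1) → ℕ → E} {𝒦 : Fin (m + 1) → Set E} {bS : Fin m → ℕ → S}
    {𝒦S : Fin m → Set S}
    (hch : GChain (fun K : Set E => IsCompact K) (PingT E) (m + 1) b 𝒦)
    (hcb : ∀ i j, i < j → ∀ N M, bS i N * bS j M = bS j M * bS i N)
    (hcK : ∀ i j, i < j → ∀ N, ∀ κ ∈ 𝒦S j, bS i N * κ = κ * bS i N)
    (hb0 : ∀ M, b 0 M = z ^ M)
    (hbS : ∀ i M, θ (bS i M) = b i.succ M) (hKS : ∀ i, θ '' 𝒦S i = 𝒦 i.succ)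
    (he : Tendsto (bS ⟨0, hm⟩) atTop (cocompact S))
    (hmi : ∀ {J : Type} [Fintype J] [DecidableEq J] {R : ℕ} {gap : J → Γ → ℝ} {cl : J → Fin R}
      {A : Finset (Fin R)} {i₀ : J}, Gaps gap cl → Tests gap cl A i₀ →
      HMIA mass gap cl A i₀ (fun n => z ^ n) θ (cocompact S))
    {ε : ℝ} (hε : 0 < ε) :
    ∃ ρ : ℝ, ∀ᶠ N : ℕ in atTop, mass (z ^ N) (ind fun γ =>
      ρ < 2 * Real.log (m2 (q γ).1) - 2 * Real.log (en (q γ).1) ∧
      ρ < Real.log (en (q γ).1) - Real.log (xp r (q γ).1)) ≤ ε := by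
  refine pos_frm (I := Unit) (k := fun _ => k) (n := fun _ => n) (σ := fun _ => σ)
    (J := fun _ => J) (q := fun _ => q) (X := ⊤) hd (fun _ => hk) (fun _ => by omega)
    (fun _ => hq) (fun C => (disc C).subset fun γ hγ => hγ ()) (fun _ => hσ) (fun _ => hJ)
    (fun _ => hI) () hr hrn hiso hθc hzθ (fun ε hε => ⟨0, fun u _ => ?_⟩) hm hrm hch hcb hcK
    (fun _ _ => Subgroup.mem_top _) hb0 hbS hKS he hmi hε
  have e : (ind fun γ : Γ => ∃ i : Unit, i ≠ () ∧ (0 : ℝ) < nmx (q γ).1) = fun _ => (0 : ℝ) := by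
    funext γ
    refine ind_neg (P := fun γ : Γ => ∃ i : Unit, i ≠ () ∧ (0 : ℝ) < nmx (q γ).1) ?_
    rintro ⟨i, hi, -⟩
    exact hi rfl
  rw [e, hd.zero]
  exact hε.le

end one

end Vale.Agent.P092.H618.PosF
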