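import Vale.Agent.P092.H534.Sp.ChQ
import Vale.Agent.P092.H761.Sharp

/-!
P092 (helper618), [P2-TYPE]: chains of any length of a group `E` with `ι : G →* E`,
`a : E →* PGL_n(k)`, from row pairs of `G ≤ SL_n(k)` (helper534's `Row2`) and diagonal elements.
-/

set_option linter.all false

open Matrix Set Topology Filter

namespace Vale.Agent.P092.H618.Rows

open Vale.Agent.P092.H534.SpK (Row2 dg_comm)
open Vale.Agent.P092.RC (PG)
open Vale.Agent.P092.H35 (mkP sp)
open Vale.Agent.P092.H761 (GChain)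
open Vale.Agent.P092.H261 (PingT)

variable {k : Type} [NontriviallyNormedField k] {n : ℕ}
  {G : Subgroup (SpecialLinearGroup (Fin n) k)} {E : Type} [Group E]
  [TopologicalSpace E] [MeasurableSpace E] [BorelSpace E] [ProperSpace k]

theorem ping_row {ι : G →* E} {a : E →* PG k n} (hι : Continuous ι) (ha : Continuous a)
    (hcomp : ∀ g, a (ι g) = sp k n g.1) {i j : Fin n} (R : Row2 G i j) {g : G} {d : Fin n → k}
    (hg : g.1.1 = diagonal d) (hd : ‖d j‖ < ‖d i‖) (p : ℕ) :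
    ∃ (N : ℕ) (κ κ' : Fin p → E), (∀ l, κ l ∈ ι '' R.K) ∧ (∀ l, κ' l ∈ ι '' R.K) ∧
      PingT E p (fun l => κ l * ι g ^ N * κ' l) := by
  letI : MeasurableSpace (PG k n) := borel _
  haveI : BorelSpace (PG k n) := ⟨rfl⟩
  obtain ⟨N₀, hN⟩ := R.pp hg hd p
  obtain ⟨κ, κ', Bm, Bp, h1, h2, h3, h4, h5, h6, h7⟩ := hN N₀ le_rfl
  refine ⟨N₀, fun l => ι (κ l), fun l => ι (κ' l), fun l => ⟨_, h1 l, rfl⟩,
    fun l => ⟨_, h2 l, rfl⟩, fun l => a ⁻¹' Bm l, fun l => a ⁻¹' Bp l,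
    fun l => ha.measurable (h3 l), fun l => ha.measurable (h4 l),
    fun l l' hl => (h5 l l' hl).preimage _, fun l l' hl => (h6 l l' hl).preimage _,
    fun l z hz => ?_⟩
  change a (ι (κ l) * ι g ^ N₀ * ι (κ' l) * z) ∈ Bp l
  rw [← map_pow, ← map_mul, ← map_mul, map_mul, hcomp]
  exact h7 l (a z) hz

/-- **Chains of any length from rows.** -/
theorem gchain_rows {ι : G →* E} {a : E →* PG k n} (hι : Continuous ι) (ha : Continuous a)
    (hcomp : ∀ g, a (ι g) = sp k n g.1) {r : ℕ} {i j : Fin r → Fin n}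
    (R : ∀ l, Row2 G (i l) (j l)) (g : Fin r → G) (d : Fin r → Fin n → k)
    (hg : ∀ l, (g l).1.1 = diagonal (d l)) (hd : ∀ l, ‖d l (j l)‖ < ‖d l (i l)‖)
    (hu : ∀ l m, l < m → ∀ t, Commute (g l) ((R m).up t))
    (hl : ∀ l m, l < m → ∀ t, Commute (g l) ((R m).lo t)) :
    GChain (fun K : Set E => IsCompact K) (PingT E) r (fun l N => ι (g l) ^ N)
      (fun l => ι '' (R l).K) where
  cpt l := (R l).isCompact_K.image hι
  comm_b l m hlm N M := by
    have h1 : Commute (g l) (g m) := by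
      apply Subtype.ext
      exact dg_comm (hg l) (hg m)
    exact (h1.map ι).pow_pow N M
  comm_K := by
    rintro l m hlm N _ ⟨y, hy, rfl⟩
    rcases hy with ⟨t, -, rfl⟩ | ⟨t, -, rfl⟩
    · exact ((hu l m hlm t).map ι).pow_left N
    · exact ((hl l m hlm t).map ι).pow_left N
  ping l p := ping_row hι ha hcomp (R l) (hg l) (hd l) p

/-- **The chain whose first direction is a given wall and whose tail is in `θ(S)`.** -/
theorem gchain_nest {ι : G →* E} {a : E →* PG k n} (hι : Continuous ι) (ha : Continuous a)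
    (hcomp : ∀ g, a (ι g) = sp k n g.1) {i₀ j₀ : Fin n} (R₀ : Row2 G i₀ j₀) {g₀ : G}
    {d₀ : Fin n → k} (hg₀ : g₀.1.1 = diagonal d₀) (hd₀ : ‖d₀ j₀‖ < ‖d₀ i₀‖)
    {S : Type} [Group S] {θ : S →* G} {m : ℕ} {i j : Fin m → Fin n}
    (R : ∀ l, Row2 G (i l) (j l)) (up lo : Fin m → k → S) (gS : Fin m → S) (d : Fin m → Fin n → k)
    (hup : ∀ l t, θ (up l t) = (R l).up t) (hlo : ∀ l t, θ (lo l t) = (R l).lo t)
    (hg : ∀ l, (θ (gS l)).1.1 = diagonal (d l)) (hd : ∀ l, ‖d l (j l)‖ < ‖d l (i l)‖)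
    (h0 : ∀ s, Commute g₀ (θ s))
    (hu : ∀ l m, l < m → ∀ t, Commute (gS l) (up m t))
    (hl : ∀ l m, l < m → ∀ t, Commute (gS l) (lo m t)) :
    ∃ (b : Fin (m + 1) → ℕ → E) (𝒦 : Fin (m + 1) → Set E),
      GChain (fun K : Set E => IsCompact K) (PingT E) (m + 1) b 𝒦 ∧
      (∀ M, b 0 M = ι g₀ ^ M) ∧ (∀ l M, ι (θ (gS l ^ M)) = b l.succ M) ∧
      ∀ l, (ι.comp θ) '' ((up l '' {t | ‖t‖ ≤ 1}) ∪ (lo l '' {t | ‖t‖ ≤ 1})) = 𝒦 l.succ := by
  have hg' : ∀ l : Fin (m + 1), ((Fin.cons g₀ (fun l => θ (gS l)) : Fin (m + 1) → G) l).1.1 =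
      diagonal ((Fin.cons d₀ d : Fin (m + 1) → Fin n → k) l) := by
    intro l
    refine Fin.cases ?_ (fun l => ?_) l
    · exact hg₀
    · exact hg l
  refine ⟨fun l N => ι ((Fin.cons g₀ (fun l => θ (gS l)) : Fin (m + 1) → G) l) ^ N,
    fun l => (Fin.cons (ι '' R₀.K) (fun l => ι '' (R l).K) : Fin (m + 1) → Set E) l, ?_,
    fun M => rfl, fun l M => ?_, fun l => ?_⟩
  · refine ⟨fun l => ?_, fun l l' hll N M => ?_, fun l l' hll N κ hκ => ?_, fun l p => ?_⟩
    · refine Fin.cases ?_ (fun l => ?_) l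
      · exact R₀.isCompact_K.image hι
      · exact (R l).isCompact_K.image hι
    · have h1 : Commute ((Fin.cons g₀ (fun l => θ (gS l)) : Fin (m + 1) → G) l)
          ((Fin.cons g₀ (fun l => θ (gS l)) : Fin (m + 1) → G) l') := by
        apply Subtype.ext
        exact dg_comm (hg' l) (hg' l')
      exact (h1.map ι).pow_pow N M
    · revert hll hκ
      refine Fin.cases (fun hll => absurd hll (Fin.not_lt_zero _)) (fun l' => ?_) l'
      refine Fin.cases (fun _ hκ => ?_) (fun l hll hκ => ?_) l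
      · obtain ⟨y, hy, rfl⟩ := hκ
        rcases hy with ⟨t, -, rfl⟩ | ⟨t, -, rfl⟩
        · rw [← hup]
          exact ((h0 _).map ι).pow_left N
        · rw [← hlo]
          exact ((h0 _).map ι).pow_left N
      · have hll' : l < l' := Fin.succ_lt_succ_iff.1 hll
        obtain ⟨y, hy, rfl⟩ := hκ
        rcases hy with ⟨t, -, rfl⟩ | ⟨t, -, rfl⟩
        · rw [← hup]
          exact (((hu l l' hll' t).map θ).map ι).pow_left N
        · rw [← hlo]
          exact (((hl l l' hll' t).map θ).map ι).pow_left N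
    · refine Fin.cases ?_ (fun l => ?_) l
      · exact ping_row hι ha hcomp R₀ hg₀ hd₀ p
      · exact ping_row hι ha hcomp (R l) (hg l) (hd l) p
  · change ι (θ (gS l ^ M)) = ι (θ (gS l)) ^ M
    rw [map_pow, map_pow]
  · change (fun x => ι (θ x)) '' _ = ι '' (R l).K
    rw [← Set.image_image, Set.image_union, Set.image_image, Set.image_image, Row2.K]
    congr 2
    · exact Set.image_congr fun t _ => hup l t
    · exact Set.image_congr fun t _ => hlo l t

end Vale.Agent.P092.H618.Rows
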